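import Vale.Agent.P277.H540.Core
import Vale.Agent.P272.K.Asm.Weak

/-! P277 (helper540): the weight function of an effective `ℝ`-divisor. -/

open scoped Manifold ContDiff ComplexOrder Topology
open Filter Set Metric

noncomputable section

namespace Vale.Agent.P277.H540

open Vale.Agent.P272.K

variable {n : ℕ} {X : Type} [TopologicalSpace X] [ChartedSpace (Cm n) X]
  {k : ℕ} {c : Fin k → ℝ} {s : Fin k → Chart n X → Cm n → ℂ}
  {σ : Fin k → Chart n X → Cm n → ℝ}

/-- `|s j|²` -/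
def SF (s : Fin k → Chart n X → Cm n → ℂ) (σ : Fin k → Chart n X → Cm n → ℝ) (j : Fin k)
    (x : X) : ℝ :=
  ‖s j (chartAt (Cm n) x) (chartAt (Cm n) x x)‖ ^ 2 *
    Real.exp (-σ j (chartAt (Cm n) x) (chartAt (Cm n) x x))

/-- `∏ |s j|^{2 c_j}` -/
def GB (c : Fin k → ℝ) (s : Fin k → Chart n X → Cm n → ℂ) (σ : Fin k → Chart n X → Cm n → ℝ)
    (x : X) : ℝ := ∏ j, SF s σ j x ^ (c j)

lemma SF_eq (hB : IsBoundary n c s σ) (j : Fin k) {e : Chart n X} {x : X} (hx : At e x) :
    SF s σ j x = ‖s j e (e x)‖ ^ 2 * Real.exp (-σ j e (e x)) :=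
  hB.change j _ e x ⟨chart_mem_atlas _ x, mem_chart_source _ x⟩ hx

lemma SF_nonneg (j : Fin k) (x : X) : 0 ≤ SF s σ j x := by unfold SF; positivity

lemma SF_zero (hB : IsBoundary n c s σ) (j : Fin k) (x : X) :
    SF s σ j x = 0 ↔ ∀ e, At e x → s j e (e x) = 0 := by
  constructor
  · intro h e he
    rw [SF_eq hB j he] at h
    rcases mul_eq_zero.1 h with h1 | h1
    · simpa using h1
    · exact absurd h1 (Real.exp_pos _).ne'
  · intro h
    unfold SF
    rw [h _ ⟨chart_mem_atlas _ x, mem_chart_source _ x⟩]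
    simp

lemma SF_continuous (hB : IsBoundary n c s σ) (j : Fin k) : Continuous (SF s σ j) := by
  rw [continuous_iff_continuousAt]
  intro x
  set e := chartAt (Cm n) x with he
  have hx : At e x := ⟨chart_mem_atlas _ x, mem_chart_source _ x⟩
  have hev : (fun y => ‖s j e (e y)‖ ^ 2 * Real.exp (-σ j e (e y))) =ᶠ[𝓝 x] SF s σ j := by
    filter_upwards [e.open_source.mem_nhds hx.2] with y hy
    exact (SF_eq hB j ⟨hx.1, hy⟩).symm
  refine ContinuousAt.congr ?_ hev
  have hec : ContinuousAt e x := e.continuousAt hx.2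
  have c1 : ContinuousAt (fun y => s j e (e y)) x :=
    ContinuousAt.comp (f := e) (g := s j e) (hB.holo j e x hx).continuousAt hec
  have c2 : ContinuousAt (fun y => σ j e (e y)) x :=
    ContinuousAt.comp (f := e) (g := σ j e) (hB.smooth j e x hx).continuousAt hec
  exact (c1.norm.pow 2).mul c2.neg.rexp

/-- local expression of `log GB` -/
def Lf (c : Fin k → ℝ) (s : Fin k → Chart n X → Cm n → ℂ) (σ : Fin k → Chart n X → Cm n → ℝ)
    (e : Chart n X) (y : Cm n) : ℝ :=
  ∑ j, c j * (Real.log (‖s j e y‖ ^ 2) + (-1 : ℝ) * σ j e y)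

lemma GB_local (hB : IsBoundary n c s σ) {e : Chart n X} {x : X} (hx : At e x)
    (hxS : x ∉ Supp n s) :
    (fun y => GB c s σ (e.symm y)) =ᶠ[𝓝 (e x)] fun y => Real.exp (Lf c s σ e y) := by
  have hne : ∀ j, s j e (e x) ≠ 0 := by
    intro j h
    refine hxS ⟨j, (SF_zero hB j x).1 ?_⟩
    rw [SF_eq hB j hx, h]; simp
  have h1 : ∀ᶠ y in 𝓝 (e x), ∀ j, s j e y ≠ 0 :=
    eventually_all.2 fun j => (hB.holo j e x hx).continuousAt.eventually_ne (hne j)
  filter_upwards [h1, e.open_target.mem_nhds (e.map_source hx.2)] with y hy hyt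
  have hA : At e (e.symm y) := ⟨hx.1, e.map_target hyt⟩
  unfold GB Lf
  rw [Real.exp_sum]
  refine Finset.prod_congr rfl fun j _ => ?_
  rw [SF_eq hB j hA, e.right_inv hyt]
  have hp : 0 < ‖s j e y‖ ^ 2 := by
    have := norm_pos_iff.2 (hy j)
    positivity
  rw [Real.rpow_def_of_pos (by positivity), Real.log_mul hp.ne' (Real.exp_pos _).ne',
    Real.log_exp]
  congr 1
  ring

lemma term_contDiff (hB : IsBoundary n c s σ) {e : Chart n X} {x : X} (hx : At e x)
    (hxS : x ∉ Supp n s) (j : Fin k) {r : WithTop ℕ∞} (hr : r ≤ ∞) :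
    ContDiffAt ℝ r (fun y => Real.log (‖s j e y‖ ^ 2)) (e x) ∧ ContDiffAt ℝ r (σ j e) (e x) ∧
      s j e (e x) ≠ 0 := by
  have hne : s j e (e x) ≠ 0 := by
    intro h
    refine hxS ⟨j, (SF_zero hB j x).1 ?_⟩
    rw [SF_eq hB j hx, h]; simp
  have h1 : ContDiffAt ℝ r (s j e) (e x) :=
    (((hB.holo j e x hx).contDiffAt (n := ω)).restrict_scalars ℝ).of_le (by exact le_top)
  refine ⟨(h1.norm_sq ℝ).log ?_, (hB.smooth j e x hx).of_le hr, hne⟩
  have := norm_pos_iff.2 hne
  positivity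

lemma Lf_contDiff (hB : IsBoundary n c s σ) {e : Chart n X} {x : X} (hx : At e x)
    (hxS : x ∉ Supp n s) {r : WithTop ℕ∞} (hr : r ≤ ∞) :
    ContDiffAt ℝ r (Lf c s σ e) (e x) := by
  unfold Lf
  refine ContDiffAt.sum fun j _ => ?_
  obtain ⟨h1, h2, _⟩ := term_contDiff hB hx hxS j hr
  exact contDiffAt_const.mul (h1.add (contDiffAt_const.mul h2))

theorem isWeight_GB (hB : IsBoundary n c s σ) : IsWeight n (Supp n s) (GB c s σ) where
  cont := by
    unfold GB
    exact continuous_finsetProd _ fun j _ =>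
      (SF_continuous hB j).rpow_const fun _ => Or.inr (hB.pos j).le
  nonneg x := by
    unfold GB
    exact Finset.prod_nonneg fun j _ => Real.rpow_nonneg (SF_nonneg j x) _
  zero x := by
    unfold GB
    rw [Finset.prod_eq_zero_iff]
    constructor
    · rintro ⟨j, _, hj⟩
      refine ⟨j, (SF_zero hB j x).1 ?_⟩
      exact ((Real.rpow_eq_zero (SF_nonneg j x) (hB.pos j).ne').1 hj)
    · rintro ⟨j, hj⟩
      refine ⟨j, Finset.mem_univ j, ?_⟩
      rw [(SF_zero hB j x).2 hj, Real.zero_rpow (hB.pos j).ne']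
  smooth e x hx hxS := by
    refine ContDiffAt.congr_of_eventuallyEq ?_ (GB_local hB hx hxS)
    exact (Lf_contDiff hB hx hxS le_rfl).exp

theorem cHess_GB (hB : IsBoundary n c s σ) {e : Chart n X} {x : X} (hx : At e x)
    (hxS : x ∉ Supp n s) :
    cHess (fun z => Real.log (GB c s σ (e.symm z))) (e x) = -formOf n c σ e (e x) := by
  have h1 : (fun z => Real.log (GB c s σ (e.symm z))) =ᶠ[𝓝 (e x)] Lf c s σ e := by
    filter_upwards [GB_local hB hx hxS] with y hy
    rw [hy, Real.log_exp]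
  rw [cHess_congr h1]
  unfold Lf formOf
  have hc : ∀ j, ContDiffAt ℝ 2 (fun y => Real.log (‖s j e y‖ ^ 2)) (e x) ∧
      ContDiffAt ℝ 2 (σ j e) (e x) ∧ s j e (e x) ≠ 0 := fun j =>
    term_contDiff hB hx hxS j INT.two_le_inf
  have h2 : ∀ j ∈ Finset.univ, ContDiffAt ℝ 2
      (fun y => c j * (Real.log (‖s j e y‖ ^ 2) + (-1 : ℝ) * σ j e y)) (e x) := fun j _ =>
    contDiffAt_const.mul ((hc j).1.add (contDiffAt_const.mul (hc j).2.1))
  rw [cHess_sum Finset.univ h2, ← Finset.sum_neg_distrib]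
  refine Finset.sum_congr rfl fun j _ => ?_
  rw [cHess_const_mul _ ((hc j).1.add (contDiffAt_const.mul (hc j).2.1)),
    cHess_add (hc j).1 (contDiffAt_const.mul (hc j).2.1), cHess_const_mul _ (hc j).2.1,
    cHess_log_norm_sq (hB.holo j e x hx).contDiffAt (hc j).2.2]
  ext a b
  simp only [Matrix.add_apply, Matrix.smul_apply, Matrix.neg_apply, Matrix.zero_apply,
    smul_eq_mul]
  push_cast
  ring

theorem IsWeight.mul {Z Z' : Set X} {V V' : X → ℝ} (h : IsWeight n Z V) (h' : IsWeight n Z' V') :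
    IsWeight n (Z ∪ Z') (fun x => V x * V' x) where
  cont := h.cont.mul h'.cont
  nonneg x := mul_nonneg (h.nonneg x) (h'.nonneg x)
  zero x := by rw [mul_eq_zero, h.zero, h'.zero]; rfl
  smooth e x hx hxZ := (h.smooth e x hx fun hz => hxZ (Or.inl hz)).mul
    (h'.smooth e x hx fun hz => hxZ (Or.inr hz))

/-- adding an effective divisor -/
theorem PositiveOff.add {w b : Chart n X → Cm n → Matrix (Fin n) (Fin n) ℂ} {Z : Set X}
    (hb : PositiveOff n w b Z) (hB : IsBoundary n c s σ) :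
    PositiveOff n w (fun e z => formOf n c σ e z + b e z) (Supp n s ∪ Z) := by
  obtain ⟨φ0, V, δ, h0, hV, hδ, hpos⟩ := hb
  refine ⟨φ0, fun x => GB c s σ x * V x, δ, h0, (isWeight_GB hB).mul hV, hδ,
    fun e x hx hxZ => ?_⟩
  have hxS : x ∉ Supp n s := fun h => hxZ (Or.inl h)
  have hxZ' : x ∉ Z := fun h => hxZ (Or.inr h)
  have g1 : 0 < GB c s σ x := lt_of_le_of_ne ((isWeight_GB hB).nonneg x)
    fun h => hxS (((isWeight_GB hB).zero x).1 h.symm)
  have g2 : 0 < V x := lt_of_le_of_ne (hV.nonneg x) fun h => hxZ' ((hV.zero x).1 h.symm)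
  have k1 : ContDiffAt ℝ ∞ (fun z => GB c s σ (e.symm z)) (e x) :=
    (isWeight_GB hB).smooth e x hx hxS
  have k2 : ContDiffAt ℝ ∞ (fun z => V (e.symm z)) (e x) := hV.smooth e x hx hxZ'
  have g1' : GB c s σ (e.symm (e x)) ≠ 0 := by rw [hx.left_inv]; exact g1.ne'
  have g2' : V (e.symm (e x)) ≠ 0 := by rw [hx.left_inv]; exact g2.ne'
  have hlog : (fun z => Real.log (GB c s σ (e.symm z) * V (e.symm z))) =ᶠ[𝓝 (e x)]
      fun z => Real.log (GB c s σ (e.symm z)) + Real.log (V (e.symm z)) := by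
    filter_upwards [k1.continuousAt.eventually_ne g1', k2.continuousAt.eventually_ne g2']
      with z hz1 hz2
    exact Real.log_mul hz1 hz2
  rw [cHess_congr hlog, cHess_add ((k1.of_le INT.two_le_inf).log g1')
    ((k2.of_le INT.two_le_inf).log g2'), cHess_GB hB hx hxS]
  have h3 := hpos e x hx hxZ'
  have h4 : cHess (φ0 e) (e x) + (formOf n c σ e (e x) + b e (e x) + (-formOf n c σ e (e x) +
      cHess (fun z => Real.log (V (e.symm z))) (e x))) =
      cHess (φ0 e) (e x) + (b e (e x) + cHess (fun z => Real.log (V (e.symm z))) (e x)) := by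
    abel
  rw [h4]
  exact h3

/-- negative fibres lie in the set where the class is not positive -/
theorem main_subset [IsManifold 𝓘(ℂ, Cm n) ω X] (hn : 0 < n)
    {w β : Chart n X → Cm n → Matrix (Fin n) (Fin n) ℂ} (hw : IsKahler w) {Z : Set X}
    (hb : PositiveOff n w β Z) {F : Set X} (hF : IsNegativeFibre n β F) : F ⊆ Z := by
  obtain ⟨φ0, V, h0, hV, hpos⟩ := hb.posDef hw
  exact negative_fibre_subset hn h0 hV hpos hF

end Vale.Agent.P277.H540
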