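import Vale.Agent.P277.H540.Disc

/-! P277 (helper540): no maximum along a disc. -/

open scoped Manifold ContDiff ComplexOrder Topology
open Filter Set Metric

noncomputable section

namespace Vale.Agent.P277.H540

open Vale.Agent.P272.K

variable {n : ℕ}

theorem disc_false (hn : 0 < n) {r : ℝ} (hr : 0 < r) {g : ℂ → Cm n}
    (hg : ∀ z ∈ ball (0 : ℂ) r, ContDiffAt ℂ ω g z) {f : Cm n → ℝ}
    (hf : ∀ z ∈ ball (0 : ℂ) r, ContDiffAt ℝ 2 f (g z))
    (himm : ∀ z ∈ ball (0 : ℂ) r, z ≠ 0 → deriv g z ≠ 0)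
    (hpos : ∀ z ∈ ball (0 : ℂ) r, deriv g z ≠ 0 → 0 < (hq (cHess f (g z)) (deriv g z)).re)
    (hle : ∀ z ∈ ball (0 : ℂ) r, f (g z) ≤ f (g 0)) : False := by
  have hlt : ∀ ζ ∈ ball (0 : ℂ) r, ζ ≠ 0 → f (g ζ) < f (g 0) := by
    intro ζ hζ h0
    refine lt_of_le_of_ne (hle ζ hζ) fun heq => ?_
    have hmax : IsLocalMax (fun z : ℂ => f (g z) + 0 * Complex.normSq z) ζ := by
      filter_upwards [isOpen_ball.mem_nhds hζ] with z hz
      simp only [zero_mul, add_zero]
      rw [heq]
      exact hle z hz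
    have h1 := disc_max hn (hg ζ hζ) (hf ζ hζ) 0 hmax
    have h2 := hpos ζ hζ (himm ζ hζ h0)
    linarith
  set r' : ℝ := r / 2 with hr'
  have hr'0 : 0 < r' := by positivity
  have hsub : closedBall (0 : ℂ) r' ⊆ ball 0 r := closedBall_subset_ball (by rw [hr']; linarith)
  have hcont : ContinuousOn (fun z : ℂ => f (g z)) (closedBall 0 r') := by
    intro z hz
    have h1 : ContinuousAt g z := (hg z (hsub hz)).continuousAt
    have h2 : ContinuousAt f (g z) := (hf z (hsub hz)).continuousAt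
    exact (ContinuousAt.comp (f := g) (g := f) h2 h1).continuousWithinAt
  have hsph : (sphere (0 : ℂ) r').Nonempty := NormedSpace.sphere_nonempty.2 hr'0.le
  obtain ⟨ζs, hζs, hmaxs⟩ := (isCompact_sphere (0 : ℂ) r').exists_isMaxOn hsph
    (hcont.mono sphere_subset_closedBall)
  have hζs0 : ζs ≠ 0 := by
    intro h
    rw [h] at hζs
    simp at hζs
    linarith
  set η : ℝ := f (g 0) - f (g ζs) with hη
  have hη0 : 0 < η := sub_pos.2 (hlt ζs (hsub (sphere_subset_closedBall hζs)) hζs0)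
  set ε : ℝ := η / (2 * r' ^ 2) with hε
  have hε0 : 0 < ε := by positivity
  have hcont2 : ContinuousOn (fun z : ℂ => f (g z) + ε * Complex.normSq z) (closedBall 0 r') :=
    hcont.add (continuousOn_const.mul Complex.continuous_normSq.continuousOn)
  obtain ⟨ζ, hζ, hmax⟩ := (isCompact_closedBall (0 : ℂ) r').exists_isMaxOn
    (nonempty_closedBall.2 hr'0.le) hcont2
  have h0 : f (g 0) ≤ f (g ζ) + ε * Complex.normSq ζ := by
    have := hmax (mem_closedBall_self hr'0.le : (0 : ℂ) ∈ closedBall 0 r')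
    simpa using this
  have hin : ζ ∈ ball (0 : ℂ) r' := by
    by_contra hcon
    have hnorm : ‖ζ‖ = r' := by
      have h1 : ‖ζ‖ ≤ r' := by simpa using hζ
      have h2 : ¬ ‖ζ‖ < r' := by simpa using hcon
      exact le_antisymm h1 (not_lt.1 h2)
    have hs : ζ ∈ sphere (0 : ℂ) r' := by simpa using hnorm
    have h3 : f (g ζ) ≤ f (g ζs) := hmaxs hs
    have h4 : Complex.normSq ζ = r' ^ 2 := by rw [Complex.normSq_eq_norm_sq, hnorm]
    have h5 : ε * r' ^ 2 = η / 2 := by
      rw [hε]; field_simp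
    rw [h4, h5] at h0
    linarith
  have hloc : IsLocalMax (fun z : ℂ => f (g z) + ε * Complex.normSq z) ζ :=
    hmax.isLocalMax (mem_of_superset (isOpen_ball.mem_nhds hin) ball_subset_closedBall)
  have hζr := hsub hζ
  have h1 := disc_max hn (hg ζ hζr) (hf ζ hζr) ε hloc
  by_cases hd : deriv g ζ = 0
  · rw [hd] at h1
    have : hq (cHess f (g ζ)) (0 : Cm n) = 0 := by simp [hq]
    rw [this] at h1
    simp at h1
    linarith
  · have h2 := hpos ζ hζr hd
    linarith

end Vale.Agent.P277.H540
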