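import Vale.Agent.P277.H540.Defs
import Vale.Agent.P272.K.Inv.Consts
import Vale.Agent.P272.K.INT.Global
import Vale.Agent.P272.K.Asm.Twisted

/-! If `K_X` is positive and `[b]` is nef outside `Z` then `K_X + [b]` is positive outside `Z`
(after the file `Vale.Agent.P223.H959.PosAdj` of helper959). -/

open scoped Manifold ContDiff ComplexOrder Matrix

namespace Vale.Agent.P277.H540

open Vale.Agent.P272.K Vale.Agent.P272.K.INT

theorem pos_adjoint {n : ℕ} {X : Type} [TopologicalSpace X] [CompactSpace X]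
    [ChartedSpace (Cm n) X] [IsManifold 𝓘(ℂ, Cm n) ω X] {Z : Set X}
    {w b : Chart n X → Cm n → Matrix (Fin n) (Fin n) ℂ} (hw : IsKahler w) (hbn : NefOff n w b Z)
    {φ1 : Chart n X → Cm n → ℝ} (hφ1 : IsCanonicalMetric φ1)
    (hpos : ∀ e x, At e x → (cHess (φ1 e) (e x)).PosDef) : PositiveOff n w b Z := by
  have hc := isClosedForm_canonical hφ1
  have hχ : IsHermitian fun e z => cHess (φ1 e) z :=
    { smooth := hc.smooth
      posDef := hpos
      change := hc.form }
  obtain ⟨C, hC, hcomp⟩ := Vale.Agent.P272.K.exists_comparison hχ hw.toIsHermitian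
  have hε : 0 < (2 * C)⁻¹ := by positivity
  obtain ⟨V, hV, hup⟩ := hbn _ hε
  refine ⟨φ1, V, (2 * C)⁻¹, hφ1, hV, hε, fun e x hx hxZ => ?_⟩
  have h1 : cHess (φ1 e) (e x) + (b e (e x) + cHess (fun z => Real.log (V (e.symm z))) (e x)) -
      (((2 * C)⁻¹ : ℝ) : ℂ) • w e (e x) =
      (b e (e x) + cHess (fun z => Real.log (V (e.symm z))) (e x) +
        (((2 * C)⁻¹ : ℝ) : ℂ) • w e (e x)) +
      C⁻¹ • ((C : ℂ) • cHess (φ1 e) (e x) - w e (e x)) := by
    have hC' : (C : ℂ) ≠ 0 := by exact_mod_cast hC.ne'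
    ext i j
    simp only [Matrix.add_apply, Matrix.sub_apply, Matrix.smul_apply, smul_eq_mul,
      Complex.real_smul]
    push_cast
    field_simp
    ring
  rw [h1]
  exact (hup e x hx hxZ).add ((hcomp e x hx).smul (by positivity))

/-- positive definiteness outside `Z` -/
theorem PositiveOff.posDef {n : ℕ} {X : Type} [TopologicalSpace X]
    [ChartedSpace (Cm n) X] {Z : Set X}
    {w β : Chart n X → Cm n → Matrix (Fin n) (Fin n) ℂ} (hw : IsKahler w)
    (h : PositiveOff n w β Z) : ∃ (φ : Chart n X → Cm n → ℝ) (V : X → ℝ), IsCanonicalMetric φ ∧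
      IsWeight n Z V ∧ ∀ (e : Chart n X) (x : X), At e x → x ∉ Z →
      (cHess (φ e) (e x) + (β e (e x) +
        cHess (fun z => Real.log (V (e.symm z))) (e x))).PosDef := by
  obtain ⟨φ, V, δ, hφ, hV, hδ, hp⟩ := h
  refine ⟨φ, V, hφ, hV, fun e x hx hxZ => ?_⟩
  have h1 := Matrix.PosDef.posSemidef_add (hp e x hx hxZ)
    (posDef_ofReal_smul (hw.posDef e x hx) hδ)
  rwa [sub_add_cancel] at h1

end Vale.Agent.P277.H540
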