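import Vale.Agent.P277.H540.Defs
import Vale.Agent.P277.H540.Disc2
import Vale.Agent.P277.H540.Nef
import Mathlib.Analysis.Complex.CauchyIntegral

/-! P277 (helper540): negative fibres lie in the support of the boundary. -/

open scoped Manifold ContDiff ComplexOrder Topology
open Filter Set Metric

noncomputable section

namespace Vale.Agent.P277.H540

open Vale.Agent.P272.K


variable {n : ℕ}

lemma hq_add (M N : Matrix (Fin n) (Fin n) ℂ) (v : Cm n) : hq (M + N) v = hq M v + hq N v := by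
  unfold hq
  rw [← Finset.sum_add_distrib]
  refine Finset.sum_congr rfl fun i _ => ?_
  rw [← Finset.sum_add_distrib]
  refine Finset.sum_congr rfl fun j _ => ?_
  rw [Matrix.add_apply]; ring

lemma hq_smul (c : ℂ) (M : Matrix (Fin n) (Fin n) ℂ) (v : Cm n) : hq (c • M) v = c * hq M v := by
  unfold hq
  rw [Finset.mul_sum]
  refine Finset.sum_congr rfl fun i _ => ?_
  rw [Finset.mul_sum]
  refine Finset.sum_congr rfl fun j _ => ?_
  rw [Matrix.smul_apply, smul_eq_mul]; ring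

lemma hq_pos {M : Matrix (Fin n) (Fin n) ℂ} (hM : M.PosDef) {v : Cm n} (hv : v ≠ 0) :
    0 < (hq M v).re := by
  have hx : (star v : Cm n) ≠ 0 := by simpa using hv
  have h := hM.dotProduct_mulVec_pos hx
  have e : star (star v) ⬝ᵥ (M.mulVec (star v)) = hq M v := by
    unfold hq
    simp only [star_star, dotProduct, Matrix.mulVec, Finset.mul_sum, Pi.star_apply]
    refine Finset.sum_congr rfl fun i _ => Finset.sum_congr rfl fun j _ => ?_
    simp only [starRingEnd_apply]; ring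
  rw [e] at h
  exact (Complex.pos_iff.1 h).1

variable {X : Type} [TopologicalSpace X] [ChartedSpace (Cm n) X]

/-- `exp (- (φF - φ0)) V` -/
def Pf (φF φ0 : Chart n X → Cm n → ℝ) (V : X → ℝ) (x : X) : ℝ :=
  Real.exp (-(φF (chartAt (Cm n) x) (chartAt (Cm n) x x) -
      φ0 (chartAt (Cm n) x) (chartAt (Cm n) x x))) * V x

variable {φF φ0 : Chart n X → Cm n → ℝ} {V : X → ℝ} {Z : Set X}

lemma Pf_eq (hF : IsCanonicalMetric φF) (h0 : IsCanonicalMetric φ0)
    {e : Chart n X} {x : X} (hx : At e x) :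
    Pf φF φ0 V x = Real.exp (-(φF e (e x) - φ0 e (e x))) * V x := by
  unfold Pf
  have hc : At (chartAt (Cm n) x) x := ⟨chart_mem_atlas _ x, mem_chart_source _ x⟩
  rw [hF.change _ e x hc hx, h0.change _ e x hc hx]
  congr 2
  ring

lemma Pf_nonneg (hV : IsWeight n Z V) (x : X) : 0 ≤ Pf φF φ0 V x := by
  have := hV.nonneg x
  unfold Pf; positivity

lemma Pf_continuous (hF : IsCanonicalMetric φF)
    (h0 : IsCanonicalMetric φ0) (hV : IsWeight n Z V) : Continuous (Pf φF φ0 V) := by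
  rw [continuous_iff_continuousAt]
  intro x
  set e := chartAt (Cm n) x with he
  have hx : At e x := ⟨chart_mem_atlas _ x, mem_chart_source _ x⟩
  have hev : (fun y => Real.exp (-(φF e (e y) - φ0 e (e y))) * V y) =ᶠ[𝓝 x]
      Pf φF φ0 V := by
    filter_upwards [e.open_source.mem_nhds hx.2] with y hy
    exact (Pf_eq hF h0 ⟨hx.1, hy⟩).symm
  refine ContinuousAt.congr ?_ hev
  have hec : ContinuousAt e x := e.continuousAt hx.2
  have c3 : ContinuousAt (fun y => φF e (e y)) x :=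
    ContinuousAt.comp (f := e) (g := φF e) (hF.smooth e x hx).continuousAt hec
  have c4 : ContinuousAt (fun y => φ0 e (e y)) x :=
    ContinuousAt.comp (f := e) (g := φ0 e) (h0.smooth e x hx).continuousAt hec
  exact (c3.sub c4).neg.rexp.mul hV.cont.continuousAt

variable [IsManifold 𝓘(ℂ, Cm n) ω X]

/-- discs in charts are holomorphic -/
lemma disc_contDiff {F : Set X} {x : X} {γ : ℂ → X} (hγ : IsDisc n F x γ) {e : Chart n X}
    {r : ℝ} (hr1 : r ≤ 1) (hr : ∀ z ∈ ball (0 : ℂ) r, At e (γ z)) {z : ℂ} (hz : z ∈ ball (0 : ℂ) r) :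
    ContDiffAt ℂ ω (fun y => e (γ y)) z := by
  have hd : DifferentiableOn ℂ (fun y => e (γ y)) (ball (0 : ℂ) r) := by
    intro y hy
    have hy1 : y ∈ ball (0 : ℂ) 1 := ball_subset_ball hr1 hy
    have h1 : MDifferentiableAt 𝓘(ℂ, ℂ) 𝓘(ℂ, Cm n) γ y :=
      (hγ.hol y hy1).mdifferentiableAt (isOpen_ball.mem_nhds hy1)
    have h2 : MDifferentiableAt 𝓘(ℂ, Cm n) 𝓘(ℂ, Cm n) e (γ y) :=
      mdifferentiableAt_atlas (hr y hy).1 (hr y hy).2
    have h3 : MDifferentiableAt 𝓘(ℂ, ℂ) 𝓘(ℂ, Cm n) (fun y => e (γ y)) y := h2.comp y h1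
    exact (mdifferentiableAt_iff_differentiableAt.1 h3).differentiableWithinAt
  exact (hd.analyticAt (isOpen_ball.mem_nhds hz)).contDiffAt

theorem negative_fibre_subset (hn : 0 < n)
    {β : Chart n X → Cm n → Matrix (Fin n) (Fin n) ℂ}
    (h0 : IsCanonicalMetric φ0) (hV : IsWeight n Z V)
    (hpos : ∀ (e : Chart n X) (x : X), At e x → x ∉ Z →
      (cHess (φ0 e) (e x) + (β e (e x) + cHess (fun z => Real.log (V (e.symm z))) (e x))).PosDef)
    {F : Set X} (hF : IsNegativeFibre n β F) : F ⊆ Z := by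
  obtain ⟨hFc, hFn, hdisc, φF, hφF, hneg⟩ := hF
  obtain ⟨x0, hx0, hmax⟩ := hFc.exists_isMaxOn hFn (Pf_continuous hφF h0 hV).continuousOn
  rcases (Pf_nonneg (φF := φF) (φ0 := φ0) hV x0).eq_or_lt with hz | hp
  · intro x hx
    by_contra hxZ
    have h1 : Pf φF φ0 V x ≤ Pf φF φ0 V x0 := hmax hx
    rw [← hz] at h1
    have hVx : 0 < V x := lt_of_le_of_ne (hV.nonneg x) fun h => hxZ ((hV.zero x).1 h.symm)
    have : 0 < Pf φF φ0 V x := by unfold Pf; positivity
    linarith
  · exfalso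
    obtain ⟨γ, hγ⟩ := hdisc x0 hx0
    set e := chartAt (Cm n) x0 with he
    have hex : At e x0 := ⟨chart_mem_atlas _ x0, mem_chart_source _ x0⟩
    have hγc : ContinuousAt γ 0 :=
      ((hγ.hol 0 (mem_ball_self one_pos)).mdifferentiableAt
        (isOpen_ball.mem_nhds (mem_ball_self one_pos))).continuousAt
    have hPc : ContinuousAt (fun z => Pf φF φ0 V (γ z)) 0 :=
      ContinuousAt.comp (f := γ) (g := Pf φF φ0 V)
        (Pf_continuous hφF h0 hV).continuousAt hγc
    have hp' : 0 < Pf φF φ0 V (γ 0) := by rw [hγ.centre]; exact hp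
    have hev1 : ∀ᶠ z in 𝓝 (0 : ℂ), γ z ∈ e.source :=
      hγc.eventually (e.open_source.mem_nhds (by rw [hγ.centre]; exact hex.2))
    have hev2 : ∀ᶠ z in 𝓝 (0 : ℂ), 0 < Pf φF φ0 V (γ z) := hPc.eventually (lt_mem_nhds hp')
    obtain ⟨r0, hr0, hball⟩ := Metric.eventually_nhds_iff_ball.1 (hev1.and hev2)
    set r := min r0 1 with hr
    have hrpos : 0 < r := lt_min hr0 one_pos
    have hr1 : r ≤ 1 := min_le_right _ _
    have hin : ∀ z ∈ ball (0 : ℂ) r, z ∈ ball (0 : ℂ) r0 ∧ z ∈ ball (0 : ℂ) 1 := fun z hz =>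
      ⟨ball_subset_ball (min_le_left _ _) hz, ball_subset_ball hr1 hz⟩
    have hAt : ∀ z ∈ ball (0 : ℂ) r, At e (γ z) := fun z hz =>
      ⟨hex.1, (hball z (hin z hz).1).1⟩
    have hPpos : ∀ z ∈ ball (0 : ℂ) r, 0 < Pf φF φ0 V (γ z) := fun z hz =>
      (hball z (hin z hz).1).2
    have hV0 : ∀ z ∈ ball (0 : ℂ) r, V (γ z) ≠ 0 := by
      intro z hz h
      have := hPpos z hz
      rw [Pf_eq hφF h0 (hAt z hz), h, mul_zero] at this
      exact lt_irrefl _ this
    have hVpos : ∀ z ∈ ball (0 : ℂ) r, 0 < V (γ z) := fun z hz =>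
      lt_of_le_of_ne (hV.nonneg _) (hV0 z hz).symm
    have hZ : ∀ z ∈ ball (0 : ℂ) r, γ z ∉ Z := fun z hz h => hV0 z hz ((hV.zero _).2 h)
    -- the local function
    set f : Cm n → ℝ := fun y =>
      (-1 : ℝ) * φF e y + (φ0 e y + Real.log (V (e.symm y))) with hf
    have hlogP : ∀ z ∈ ball (0 : ℂ) r, f (e (γ z)) = Real.log (Pf φF φ0 V (γ z)) := by
      intro z hz
      have h2 := hVpos z hz
      rw [Pf_eq hφF h0 (hAt z hz), Real.log_mul (by positivity) (by positivity),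
        Real.log_exp, hf]
      simp only [(hAt z hz).left_inv]
      ring
    have hd4 : ∀ z ∈ ball (0 : ℂ) r, ContDiffAt ℝ 2 (φF e) (e (γ z)) := fun z hz =>
      (hφF.smooth e _ (hAt z hz)).of_le INT.two_le_inf
    have hd5 : ∀ z ∈ ball (0 : ℂ) r, ContDiffAt ℝ 2 (φ0 e) (e (γ z)) := fun z hz =>
      (h0.smooth e _ (hAt z hz)).of_le INT.two_le_inf
    have hd6 : ∀ z ∈ ball (0 : ℂ) r, ContDiffAt ℝ 2 (fun y => Real.log (V (e.symm y)))
        (e (γ z)) := by
      intro z hz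
      refine ((hV.smooth e _ (hAt z hz) (hZ z hz)).of_le INT.two_le_inf).log ?_
      rw [(hAt z hz).left_inv]
      exact hV0 z hz
    have hcH : ∀ z ∈ ball (0 : ℂ) r, cHess f (e (γ z)) =
        (-(cHess (φF e) (e (γ z)) + β e (e (γ z)))) +
          (cHess (φ0 e) (e (γ z)) + (β e (e (γ z)) +
            cHess (fun y => Real.log (V (e.symm y))) (e (γ z)))) := by
      intro z hz
      have a2 : ContDiffAt ℝ 2 (fun y => (-1 : ℝ) * φF e y) (e (γ z)) :=
        contDiffAt_const.mul (hd4 z hz)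
      rw [hf, cHess_add a2 ((hd5 z hz).add (hd6 z hz)), cHess_add (hd5 z hz) (hd6 z hz),
        cHess_const_mul _ (hd4 z hz)]
      ext i j
      simp only [Matrix.add_apply, Matrix.smul_apply, Matrix.neg_apply, smul_eq_mul]
      push_cast
      ring
    refine disc_false hn hrpos (g := fun y => e (γ y)) (f := f)
      (fun z hz => disc_contDiff hγ hr1 hAt hz) (fun z hz => ?_)
      (fun z hz hz0 => hγ.imm z (hin z hz).2 hz0 e (hAt z hz)) (fun z hz hdz => ?_)
      (fun z hz => ?_)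
    · exact (contDiffAt_const.mul (hd4 z hz)).add ((hd5 z hz).add (hd6 z hz))
    · have h1 := hneg x0 γ hγ z (hin z hz).2 e (hAt z hz) hdz
      have h2 := hq_pos (hpos e _ (hAt z hz) (hZ z hz)) hdz
      have h3 : 0 < (hq (-(cHess (φF e) (e (γ z)) + β e (e (γ z))))
          (deriv (fun y => e (γ y)) z)).re := h1
      show 0 < (hq (cHess f (e (γ z))) (deriv (fun y => e (γ y)) z)).re
      rw [hcH z hz, hq_add, Complex.add_re]
      exact add_pos h3 h2
    · show f (e (γ z)) ≤ f (e (γ 0))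
      have h00 : (0 : ℂ) ∈ ball (0 : ℂ) r := mem_ball_self hrpos
      rw [hlogP z hz, hlogP 0 h00]
      refine Real.log_le_log (hPpos z hz) ?_
      rw [hγ.centre]
      exact hmax (hγ.mem z (hin z hz).2)

end Vale.Agent.P277.H540
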