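import Vale.Agent.P223.H959.Nef
import Mathlib.Geometry.Manifold.MFDeriv.Basic

/-! # P277 (helper540): negative fibres -/

open scoped Manifold ContDiff ComplexOrder

namespace Vale.Agent.P277.H540

open Vale.Agent.P272.K

variable (n : ℕ) {X : Type} [TopologicalSpace X] [ChartedSpace (Cm n) X]

/-- `γ` is a holomorphic map from the unit disc to `X`, with image in `F`, with `γ(0) = x` and with
nonzero derivative outside `0`. -/
structure IsDisc (F : Set X) (x : X) (γ : ℂ → X) : Prop where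
  hol : MDifferentiableOn 𝓘(ℂ, ℂ) 𝓘(ℂ, Cm n) γ (Metric.ball 0 1)
  centre : γ 0 = x
  mem : ∀ z ∈ Metric.ball (0 : ℂ) 1, γ z ∈ F
  imm : ∀ z ∈ Metric.ball (0 : ℂ) 1, z ≠ 0 → ∀ e : Chart n X, At e (γ z) →
    deriv (fun y => e (γ y)) z ≠ 0

/-- The real `(1,1)`-form `β` is positive on the tangent vectors of the holomorphic discs
contained in `F`. -/
def PosAlong (F : Set X) (β : Chart n X → Cm n → Matrix (Fin n) (Fin n) ℂ) : Prop :=
  ∀ (x : X) (γ : ℂ → X), IsDisc n F x γ → ∀ z ∈ Metric.ball (0 : ℂ) 1, ∀ e : Chart n X,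
    At e (γ z) → deriv (fun y => e (γ y)) z ≠ 0 →
      0 < (∑ i, ∑ j, β e (e (γ z)) i j * (deriv (fun y => e (γ y)) z i *
        (starRingEnd ℂ) (deriv (fun y => e (γ y)) z j))).re

/-- `B = ∑ c_j B_j` is an effective `ℝ`-divisor: `c_j > 0`, `s j` is the canonical section of the
line bundle `O(B_j)` of an effective divisor `B_j` (`s j e` is a local equation of `B_j` in the chart
`e`), and `σ j` is a smooth Hermitian metric on `O(B_j)`, given by its weights:
`|s j|² = |s j e|² exp (-σ j e)`, with curvature form `i∂∂̄(σ j e)`. -/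
structure IsBoundary {k : ℕ} (c : Fin k → ℝ) (s : Fin k → Chart n X → Cm n → ℂ)
    (σ : Fin k → Chart n X → Cm n → ℝ) : Prop where
  pos : ∀ j, 0 < c j
  holo : ∀ j e x, At e x → AnalyticAt ℂ (s j e) (e x)
  dense : ∀ j, ∃ V : Set X, IsOpen V ∧ Dense V ∧ ∀ e, ∀ x ∈ V, At e x → s j e (e x) ≠ 0
  smooth : ∀ j e x, At e x → ContDiffAt ℝ ∞ (σ j e) (e x)
  change : ∀ j e e' x, At e x → At e' x →
    ‖s j e (e x)‖ ^ 2 * Real.exp (-σ j e (e x)) = ‖s j e' (e' x)‖ ^ 2 * Real.exp (-σ j e' (e' x))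

/-- The curvature form `∑ c_j i∂∂̄(σ j)` of the metrics, a form in the class of `B`. -/
noncomputable def formOf {k : ℕ} (c : Fin k → ℝ) (σ : Fin k → Chart n X → Cm n → ℝ)
    (e : Chart n X) (z : Cm n) : Matrix (Fin n) (Fin n) ℂ :=
  ∑ j, (c j : ℂ) • cHess (σ j e) z

/-- `V` is a continuous function `≥ 0` on `X` with zero set `Z`, smooth outside `Z`. -/
structure IsWeight (Z : Set X) (V : X → ℝ) : Prop where
  cont : Continuous V
  nonneg : ∀ x, 0 ≤ V x
  zero : ∀ x, V x = 0 ↔ x ∈ Z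
  smooth : ∀ (e : Chart n X) (x : X), At e x → x ∉ Z →
    ContDiffAt ℝ ∞ (fun z => V (e.symm z)) (e x)

/-- The class `[b]` is nef outside `Z`: for every `ε > 0` there is `V` as above with
`b + i∂∂̄ log V ≥ -ε w` outside `Z`. For `Z = ∅` this says that `[b]` is nef. -/
def NefOff (w b : Chart n X → Cm n → Matrix (Fin n) (Fin n) ℂ) (Z : Set X) : Prop :=
  ∀ ε : ℝ, 0 < ε → ∃ V : X → ℝ, IsWeight n Z V ∧ ∀ (e : Chart n X) (x : X), At e x → x ∉ Z →
    (b e (e x) + cHess (fun z => Real.log (V (e.symm z))) (e x) +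
      (ε : ℂ) • w e (e x)).PosSemidef

/-- The class `K_X + [β]` is big and positive outside `Z`: there are a smooth metric `φ` on `K_X`, a
function `V` as above and `δ > 0` with `i∂∂̄φ + β + i∂∂̄ log V ≥ δ w` outside `Z` (so that, if `Z` has dense
complement, the class contains a Kähler current which is smooth outside `Z`). For `Z = ∅` this says
that `K_X + [β]` is a Kähler class. -/
def PositiveOff (w β : Chart n X → Cm n → Matrix (Fin n) (Fin n) ℂ) (Z : Set X) : Prop :=
  ∃ (φ : Chart n X → Cm n → ℝ) (V : X → ℝ) (δ : ℝ), IsCanonicalMetric φ ∧ IsWeight n Z V ∧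
    0 < δ ∧ ∀ (e : Chart n X) (x : X), At e x → x ∉ Z →
      (cHess (φ e) (e x) + (β e (e x) + cHess (fun z => Real.log (V (e.symm z))) (e x)) -
        (δ : ℂ) • w e (e x)).PosSemidef

/-- The support of `B`. -/
def Supp {k : ℕ} (s : Fin k → Chart n X → Cm n → ℂ) : Set X :=
  {x | ∃ j, ∀ e, At e x → s j e (e x) = 0}

/-- `F` is a fibre of positive dimension along which `-D` is ample, `D = K_X + [β]`: `F` is compact
and not empty, every point of `F` is the centre of a holomorphic disc in `F`, and some smooth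
representative of the class of `-D` is positive along `F`. -/
def IsNegativeFibre (β : Chart n X → Cm n → Matrix (Fin n) (Fin n) ℂ) (F : Set X) : Prop :=
  IsCompact F ∧ F.Nonempty ∧ (∀ x ∈ F, ∃ γ, IsDisc n F x γ) ∧
    ∃ φ : Chart n X → Cm n → ℝ, IsCanonicalMetric φ ∧
      PosAlong n F fun e z => -(cHess (φ e) z + β e z)

end Vale.Agent.P277.H540
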