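import Vale.Agent.P272.K.Inv.Hess
import Vale.Agent.P272.K.AMP.H470.Loc
import Vale.Agent.P272.K.N.MaxP

/-! P277 (helper540): maximum principle along a holomorphic disc. -/

open scoped Manifold ContDiff ComplexOrder Topology
open Filter Set

noncomputable section

namespace Vale.Agent.P277.H540

open Vale.Agent.P272.K

variable {n : ℕ}

/-- the Hermitian form -/
def hq (M : Matrix (Fin n) (Fin n) ℂ) (v : Cm n) : ℂ :=
  ∑ i, ∑ j, M i j * (v i * (starRingEnd ℂ) (v j))

/-- a holomorphic curve as a map of `n` variables -/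
def tau (i0 : Fin n) (g : ℂ → Cm n) (y : Cm n) : Cm n := g (y i0)

lemma tau_contDiff (i0 : Fin n) {g : ℂ → Cm n} {ζ : ℂ} (hg : ContDiffAt ℂ ω g ζ) :
    ContDiffAt ℂ ω (tau i0 g) (fun _ => ζ) := by
  have h1 : ContDiffAt ℂ ω (fun y : Cm n => y i0) (fun _ => ζ) :=
    (ContinuousLinearMap.proj (R := ℂ) (φ := fun _ : Fin n => ℂ) i0).contDiff.contDiffAt
  exact ContDiffAt.comp (fun _ => ζ) (f := fun y : Cm n => y i0) (g := g) (by simpa using hg) h1

lemma jmat_tau (i0 : Fin n) {g : ℂ → Cm n} {ζ : ℂ} (hg : ContDiffAt ℂ ω g ζ) (p : Fin n) :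
    jmat (tau i0 g) (fun _ => ζ) p i0 = deriv g ζ p := by
  rw [jmat_apply ((tau_contDiff i0 hg).differentiableAt (by simp))]
  have h1 : HasFDerivAt (fun y : Cm n => y i0)
      (ContinuousLinearMap.proj (R := ℂ) (φ := fun _ : Fin n => ℂ) i0) (fun _ => ζ) :=
    (ContinuousLinearMap.proj (R := ℂ) (φ := fun _ : Fin n => ℂ) i0).hasFDerivAt
  have h2 : HasFDerivAt g (fderiv ℂ g ζ) ((fun y : Cm n => y i0) (fun _ => ζ)) :=
    (hg.differentiableAt (by simp)).hasFDerivAt
  have h3 := h2.comp (fun _ => ζ) h1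
  have h4 : HasFDerivAt (tau i0 g)
      ((fderiv ℂ g ζ).comp (ContinuousLinearMap.proj (R := ℂ) (φ := fun _ : Fin n => ℂ) i0))
      (fun _ => ζ) := h3
  rw [h4.fderiv]
  simp only [ContinuousLinearMap.comp_apply, ContinuousLinearMap.proj_apply, Pi.single_eq_same]
  rw [← fderiv_apply_one_eq_deriv]

/-- **Second derivative test along a disc.** -/
theorem disc_max (hn : 0 < n) {g : ℂ → Cm n} {ζ : ℂ} (hg : ContDiffAt ℂ ω g ζ)
    {f : Cm n → ℝ} (hf : ContDiffAt ℝ 2 f (g ζ)) (ε : ℝ)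
    (hmax : IsLocalMax (fun z : ℂ => f (g z) + ε * Complex.normSq z) ζ) :
    (hq (cHess f (g ζ)) (deriv g ζ)).re + ε ≤ 0 := by
  set i0 : Fin n := ⟨0, hn⟩
  set c : Cm n := fun _ => ζ with hc
  -- the projection to the first coordinate
  set P : Cm n → Cm n := tau i0 (fun z => Pi.single i0 z) with hP
  have hs : ContDiffAt ℂ ω (fun z : ℂ => (Pi.single i0 z : Cm n)) ζ :=
    (ContinuousLinearMap.single ℂ (fun _ : Fin n => ℂ) i0).contDiff.contDiffAt
  have hPc := tau_contDiff i0 hs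
  have hTc := tau_contDiff i0 hg
  have hsq : ∀ y : Cm n, AMP.sq 0 (P y) = Complex.normSq (y i0) := by
    intro y
    unfold AMP.sq
    rw [Finset.sum_eq_single i0]
    · simp [hP, tau]
    · intro j _ hj
      simp [hP, tau, hj]
    · simp
  have hd1 : ContDiffAt ℝ 2 (fun y => f (tau i0 g y)) c := by
    have h1 : ContDiffAt ℝ 2 (tau i0 g) c := (hTc.restrict_scalars ℝ).of_le (by exact le_top)
    exact ContDiffAt.comp c (f := tau i0 g) (g := f) (by simpa [tau, hc] using hf) h1
  have hsq2 : ContDiffAt ℝ 2 (AMP.sq (0 : Cm n)) (P c) :=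
    ((AMP.contDiff_sq (0 : Cm n)).of_le (by norm_cast)).contDiffAt
  have hd2 : ContDiffAt ℝ 2 (fun y => AMP.sq 0 (P y)) c := by
    have h1 : ContDiffAt ℝ 2 P c := (hPc.restrict_scalars ℝ).of_le (by exact le_top)
    exact ContDiffAt.comp c (f := P) (g := AMP.sq (0 : Cm n)) hsq2 h1
  have hd3 : ContDiffAt ℝ 2 (fun y => ε * AMP.sq 0 (P y)) c := contDiffAt_const.mul hd2
  have hmaxF : IsLocalMax (fun y : Cm n => f (tau i0 g y) + ε * AMP.sq 0 (P y)) c := by
    have hcont : Tendsto (fun y : Cm n => y i0) (𝓝 c) (𝓝 ζ) := by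
      have := (continuous_apply i0 : Continuous fun y : Cm n => y i0).tendsto c
      simpa [hc] using this
    filter_upwards [hcont.eventually hmax] with y hy
    rw [hsq, hsq]
    simpa [tau, hc] using hy
  have hneg := N.neg_cHess_posSemidef (hd1.add hd3) hmaxF
  have hdiag : 0 ≤ (-cHess (fun y : Cm n => f (tau i0 g y) + ε * AMP.sq 0 (P y)) c) i0 i0 := by
    have := hneg.diag_nonneg (i := i0)
    simpa using this
  rw [cHess_add hd1 hd3, cHess_const_mul ε hd2, cHess_comp (τ := tau i0 g)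
    (by simpa [tau, hc] using hf) hTc, cHess_comp (τ := P) hsq2 hPc, AMP.cHess_sq] at hdiag
  have e1 : ((jmat (tau i0 g) c).transpose * cHess f (tau i0 g c) *
      (jmat (tau i0 g) c).map (starRingEnd ℂ)) i0 i0 = hq (cHess f (g ζ)) (deriv g ζ) := by
    have ht : tau i0 g c = g ζ := rfl
    rw [ht]
    simp only [Matrix.mul_apply, Matrix.transpose_apply, Matrix.map_apply, jmat_tau i0 hg, hc]
    unfold hq
    rw [Finset.sum_comm]
    refine Finset.sum_congr rfl fun q _ => ?_
    rw [Finset.sum_mul]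
    refine Finset.sum_congr rfl fun p _ => ?_
    ring
  have e2 : ((jmat P c).transpose * (1 : Matrix (Fin n) (Fin n) ℂ) *
      (jmat P c).map (starRingEnd ℂ)) i0 i0 = 1 := by
    rw [mul_one]
    simp only [Matrix.mul_apply, Matrix.transpose_apply, Matrix.map_apply]
    have hj : ∀ p, jmat P c p i0 = (Pi.single i0 1 : Cm n) p := by
      intro p
      rw [hP, hc, jmat_tau i0 hs]
      have : deriv (fun z : ℂ => (Pi.single i0 z : Cm n)) ζ = Pi.single i0 1 := by
        have h := ((ContinuousLinearMap.single ℂ (fun _ : Fin n => ℂ) i0).hasFDerivAt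
          (x := ζ)).hasDerivAt
        simpa using h.deriv
      rw [this]
    rw [Finset.sum_eq_single i0]
    · rw [hj]; simp
    · intro p _ hp
      rw [hj]; simp [hp]
    · simp
  rw [Matrix.neg_apply, Matrix.add_apply, Matrix.smul_apply, e1, e2] at hdiag
  have h3 := (Complex.le_def.1 hdiag).1
  simp at h3
  linarith

end Vale.Agent.P277.H540
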